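import Vale.Agent.P011UGC5.Act
import Vale.Agent.P011UG.Ort
import Vale.Agent.P011UD.Aut
import Mathlib.GroupTheory.Perm.Cycle.Type

/-!
The normalisation of the opposite forms.
-/

set_option autoImplicit false
set_option linter.all false

namespace Vale.Agent.P011UGC5

open Matrix Vale.Agent.P011L Vale.Agent.P183CH Vale.Agent.P183CH.Chev Vale.Agent.P011U
  Vale.Agent.P011UGA Vale.Agent.P011UD

theorem swap_of {α : Type} [Fintype α] [DecidableEq α] {E : Finset α} (hE : E.card ≤ 3)
    {p : Equiv.Perm α} (h : ∀ i ∉ E, p i = i) (h4 : p ^ 4 = 1) : p = 1 ∨ p.IsSwap := by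
  have h1 : p.support.card ≤ 3 := (Finset.card_le_card fun i hi => by
    by_contra c
    exact Equiv.Perm.mem_support.1 hi (h i c)).trans hE
  have h2 := p.card_support_ne_one
  have h3 : p.support.card ≠ 3 := fun e => by
    have := orderOf_dvd_of_pow_eq_one h4
    rw [(card_support_eq_three_iff.1 e).orderOf] at this
    omega
  rw [← Equiv.Perm.card_support_eq_two, ← Equiv.Perm.card_support_eq_zero]
  omega

theorem e6 {p : Equiv.Perm (Fin 6)} (h : Au CartanMatrix.E₆ p) :
    p = 1 ∨ p = Equiv.swap 0 5 * Equiv.swap 2 4 := by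
  have k : ∀ a, p a = a ∨ p a = ![5, 1, 4, 3, 2, 0] a := fun a => by
    have := h.vec (by rw [CartanMatrix.E₆_det]; decide) ![16, 22, 30, 42, 30, 16] (by decide) a
    generalize p a = b at this
    revert a b
    decide
  have h1 := h 0 2
  have h2 := h 5 4
  have h3 := p.injective.ne (show (0 : Fin 6) ≠ 5 by decide)
  have k1 : p 1 = 1 := (k 1).elim id id
  have k3 : p 3 = 3 := (k 3).elim id id
  rcases k 0 with k0 | k0 <;> rcases k 2 with k2 | k2 <;> rcases k 4 with k4 | k4 <;>
    rcases k 5 with k5 | k5 <;> rw [k0, k2] at h1 <;> rw [k5, k4] at h2 <;> rw [k0, k5] at h3 <;>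
    first
    | exact absurd h1 (by decide)
    | exact absurd h2 (by decide)
    | exact absurd h3 (by decide)
    | skip
  · exact .inl (Equiv.ext fun a => by fin_cases a <;> assumption)
  · exact .inr (Equiv.ext fun a => by fin_cases a <;> assumption)

theorem two {R : RS} (hR : R.Ok) (hA : ¬TyA R) {p q : Equiv.Perm (Fin R.r)} (hp : Dg R p)
    (hq : Dg R q) (p4 : p ^ 4 = 1) (q4 : q ^ 4 = 1) (h4 : (p * q) ^ 4 = 1) :
    p = 1 ∨ q = 1 ∨ p = q := by
  by_cases c : ∃ e, Ty R CartanMatrix.E₆ e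
  · obtain ⟨e, t⟩ := c
    rcases e6 (t.au hp) with a | a
    · exact .inl (pc_one a)
    rcases e6 (t.au hq) with b | b
    · exact .inr (.inl (pc_one b))
    · exact .inr (.inr (e.permCongr.injective (a.trans b.symm)))
  obtain ⟨E, hE, h⟩ := dg3 hR hA (by
    rcases cls R hR with t | t | t | t | t | t
    exacts [absurd t hA, .inl (ex2 R (.inl t)), .inl (ex2 R (.inr (.inl t))), .inr t, absurd t c,
      .inl (ex2 R (.inr (.inr (.inr t))))])
  rcases swap_of hE (h p hp) p4 with a | a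
  · exact .inl a
  rcases swap_of hE (h q hq) q4 with b | b
  · exact .inr (.inl b)
  rcases swap_of hE (h (p * q) fun i j => (hp _ _).trans (hq i j)) h4 with d | d
  · obtain ⟨x, y, -, rfl⟩ := b
    exact .inr (.inr (by rw [eq_inv_of_mul_eq_one_left d, Equiv.swap_inv]))
  · have := d.sign_eq
    rw [map_mul, a.sign_eq, b.sign_eq] at this
    exact absurd this (by decide)

theorem opn : OPN := fun k K _ _ _ _ _ D hD T hA ε π c ⟨⟨θ, hθ⟩, h1, h2, h⟩ => by
  have hR := R_ok D
  have m : ∀ (e : ℤˣ) i, (e : ℤ) • D.R.α i ∈ D.R.Φ := fun e i => by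
    rcases Int.units_eq_one_or e with rfl | rfl
    · simpa using hR.simple i
    · simpa using hR.neg_mem (hR.simple i)
  have x : ∀ {e e' : ℤˣ} {i j} {a : Kˣ} {b : K}, (GG D K).x ((e : ℤ) • D.R.α i) a =
      (GG D K).x ((e' : ℤ) • D.R.α j) b → e = e' ∧ i = j ∧ (a : K) = b := by
    intro e e' i j a b q
    have q1 := GG_ok.x_eq hR (m e i) (m e' j) a.ne_zero q
    refine ⟨?_, ?_, GG_ok.x_inj hR (m e' j) (q1 ▸ q)⟩
    all_goals
      have q2 := congrFun q1 i
      by_cases l : i = j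
      · subst l
        first | rfl | (ext; simpa [RS.α_self] using q2)
      · simp [RS.α_self, RS.α_ne l] at q2
  have k0 : ∀ σ τ i, π (σ * τ) i = π σ (π τ i) ∧
      (c (σ * τ) i : K) = c σ (π τ i) ^ (ε τ : ℤ) * σ (c τ i) := fun σ τ i => by
    have q := (h (σ * τ) i 1).1
    rw [map_mul, MulAut.mul_apply, (h τ i 1).1, map_one, map_one, mul_one, mul_one] at q
    rcases Int.units_eq_one_or (ε τ) with e | e
    · rw [e, Units.val_one, one_smul, (h σ _ _).1] at q
      simpa [e] using (x q.symm).2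
    · rw [e, Units.val_neg, Units.val_one, neg_smul, one_smul, (h σ _ _).2, ← neg_smul,
        ← Units.val_neg] at q
      simpa [e] using (x q.symm).2
  let π' : (K ≃ₐ[k] K) →* Equiv.Perm (Fin D.R.r) :=
    MonoidHom.mk' π fun σ τ => Equiv.ext fun i => (k0 σ τ i).1
  have k1 : ∀ σ, ε σ = -1 → ∀ i, (c θ ((π θ).symm (π σ i)) : K) = c σ i := fun σ e i => by
    have e' : ε (θ⁻¹ * σ) = 1 := by simp [e, hθ]
    have := k0 θ (θ⁻¹ * σ) i
    rw [mul_inv_cancel_left] at this
    simp [this.1, this.2, e', h1 _ e']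
  have o : Opw T ε π' fun j => c θ ((π θ).symm j) := by
    refine ⟨(P011UC.near_fE T).imp fun F hF => ⟨hF.1, fun τ e => ?_⟩, h2, fun σ _ i => ?_,
      fun σ i u e => by simpa [e, h1 σ e, π'] using h σ i u, fun σ i u e => ?_⟩
    · have : ∀ i, ε τ = 1 ∧ π τ i = i := fun i => by
        have q := (h τ i 1).1
        rw [hF.2 τ e, P011UC.fE_x, map_one, mul_one] at q
        have := x (e' := 1) (j := i) (q.symm.trans (by simp; rfl))
        exact ⟨this.1, this.2.1⟩
      exact ⟨(this ⟨0, hR.pos⟩).1, Equiv.ext fun i => (this i).2⟩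
    · obtain ⟨i, rfl⟩ := (π θ).surjective i
      have q := k0 σ θ i
      show (c θ ((π θ).symm (π σ (π θ i))) : K) = σ (c θ ((π θ).symm (π θ i)))
      rcases Int.units_eq_one_or (ε σ) with e | e
      · rw [← q.1, k1 _ (by simp [e, hθ]), q.2]
        simp [h1 σ e]
      · have q2 := q.2
        rw [h1 _ (by simp [e, hθ]), hθ] at q2
        rw [k1 σ e, Equiv.symm_apply_apply]
        simpa [eq_inv_mul_iff_mul_eq₀] using q2
    · have q := h σ i u
      rw [← Units.ext (k1 σ e i), e] at q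
      simpa [π'] using q
  refine ⟨π', _, o, fun σ i e => hR.A_zero_comm.1 (P011UG.ort cls hR hA _ i (h2 σ) e),
    fun t σ τ => ?_⟩
  have p4 : ∀ σ, π' σ ^ 4 = 1 := fun σ => by
    by_contra l
    exact t ⟨σ * σ, 1, 1, _, std_pos o (by simp), fun e => l (by
      rw [← e, map_mul, pow_succ, pow_succ, sq, mul_assoc])⟩
  exact two hR hA (h2 σ) (h2 τ) (p4 σ) (p4 τ) (map_mul π' σ τ ▸ p4 _)

end Vale.Agent.P011UGC5
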