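import Vale.Agent.P011UGA.IF
import Vale.Agent.P011UP.Std
import Vale.Agent.P011UC.Tr

/-!
The action on the torus of a normalised form, and the transport to a new frame.
-/

set_option autoImplicit false
set_option linter.all false

namespace Vale.Agent.P011UGC5

open Matrix Vale.Agent.P011L Vale.Agent.P183CH Vale.Agent.P183CH.Chev Vale.Agent.P011U
  Vale.Agent.P011UGA Vale.Agent.P011UP

section

variable {R : RS} {K G : Type} [Field K] [Group G] {Γ : RG R K G} (hΓ : Γ.Ok) (hR : R.Ok)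
include hΓ hR

theorem sl_neg (i : Fin R.r) : ∃ c : Kˣ, ∀ u : Kˣ,
    Γ.x (-R.α i) u * Γ.x (R.α i) (-(u⁻¹ : Kˣ)) * Γ.x (-R.α i) u = Γ.h i (c * u⁻¹) * Γ.n i := by
  obtain ⟨c, hc⟩ := hΓ.rep_conj hR (RG.rep_n i) (hR.simple i)
  rw [hR.sE_α, neg_neg] at hc
  refine ⟨c, fun u => ?_⟩
  have h1 := congrArg (fun g => Γ.n i * g * (Γ.n i)⁻¹) (hΓ.sl i (c⁻¹ * u))
  have h2 := hΓ.nh i i (c⁻¹ * u)
  rw [hR.diag, ← map_mul, show c⁻¹ * u * (c⁻¹ * u) ^ (-2 : ℤ) = c * u⁻¹ by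
    rw [← zpow_one_add]; simp [mul_comm]] at h2
  rw [← h2, show (u : K) = c * (c⁻¹ * u : Kˣ) by simp, ← (hc _).1,
    show -((u⁻¹ : Kˣ) : K) = (c⁻¹ : Kˣ) * -((c⁻¹ * u)⁻¹ : Kˣ) by simp [mul_comm, mul_left_comm],
    ← (hc _).2]
  simpa [mul_assoc] using h1

theorem neg_h {ψ : G ≃* G} {σ : K →+* K} {i j : Fin R.r} {d : Kˣ}
    (h : ∀ u, ψ (Γ.x (R.α i) u) = Γ.x (-R.α j) (d * σ u) ∧
      ψ (Γ.x (-R.α i) u) = Γ.x (R.α j) ((d⁻¹ : Kˣ) * σ u)) (t : Kˣ) :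
    ψ (Γ.h i t) = Γ.h j (Units.map (σ : K →* K) t)⁻¹ := by
  obtain ⟨c, hc⟩ := sl_neg hΓ hR j
  have h1 : ∀ t : Kˣ, ψ (Γ.h i t * Γ.n i) =
      Γ.h j (c * (d * Units.map (σ : K →* K) t)⁻¹) * Γ.n j := fun t => by
    rw [← hΓ.sl, ← hc, map_mul, map_mul, (h _).1, (h _).2]
    simp [mul_comm]
  have h2 := h1 1
  rw [map_one, one_mul] at h2
  have h3 := h1 t
  rw [map_mul, h2, ← mul_assoc, mul_left_inj, ← eq_mul_inv_iff_mul_eq, ← map_inv,
    ← map_mul] at h3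
  rw [h3]
  congr 1
  simp [mul_assoc, mul_left_comm c]

end

variable {k K : Type} [Field k] [Field K] [Algebra k K] {D : Chev} {T : Tw k (D.grp K)}
  {ε : (K ≃ₐ[k] K) →* ℤˣ} {π : (K ≃ₐ[k] K) →* Equiv.Perm (Fin D.R.r)} {d : Fin D.R.r → Kˣ}

theorem std_pos (h : Opw T ε π d) {σ : K ≃ₐ[k] K} (e : ε σ = 1) :
    Std (GG D K) (T.a σ) σ 1 1 (π σ) := ⟨h.dg σ, fun i u => by simpa using h.pos σ i u e⟩

/-- The action on the coroots. -/
theorem a_h (h : Opw T ε π d) (σ : K ≃ₐ[k] K) (i : Fin D.R.r) (t : Kˣ) :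
    T.a σ ((GG D K).h i t) = (GG D K).h (π σ i) (Units.map (σ : K →* K) t ^ (ε σ : ℤ)) := by
  rcases Int.units_eq_one_or (ε σ) with e | e
  · simpa [e] using std_h GG_ok (std_pos h e) i t
  · rw [e]
    exact (neg_h GG_ok (R_ok D) (σ := (σ : K →+* K)) (fun u => h.neg σ i u e) t).trans
      (congrArg _ (zpow_neg_one _).symm)

/-- The action on the torus. -/
theorem a_hT (h : Opw T ε π d) (σ : K ≃ₐ[k] K) (s : Fin D.R.r → Kˣ) :
    T.a σ (hT D K s) =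
      hT D K fun j => Units.map (σ : K →* K) (s ((π σ).symm j)) ^ (ε σ : ℤ) := by
  induction s using Pi.mulSingle_induction with
  | one => simp [← Pi.one_def]
  | mul s s' e e' =>
    rw [map_mul, map_mul, e, e', ← map_mul]
    congr 1
    funext j
    simp [mul_zpow]
  | mulSingle i b =>
    rw [GG_ok.hT_single, a_h h, ← GG_ok.hT_single]
    congr 1
    funext j
    by_cases e : j = π σ i
    · simp [e]
    · rw [Pi.mulSingle_eq_of_ne e, Pi.mulSingle_eq_of_ne fun e' => e (by simp [← e']), map_one,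
        _root_.one_zpow]

theorem fix_hT (hD : SC D) (h : Opw T ε π d) {σ : K ≃ₐ[k] K} {s s' : Fin D.R.r → Kˣ} :
    T.a σ (hT D K s) = hT D K s' ↔
      ∀ i, s' (π σ i) = Units.map (σ : K →* K) (s i) ^ (ε σ : ℤ) := by
  rw [a_hT h, hD.hT_inj.eq_iff, funext_iff, ← (π σ).forall_congr_right]
  simp only [Equiv.symm_apply_apply, eq_comm]

theorem eqt_nd (h : Opw T ε π d) {t : Fin D.R.r → Kˣ} (ht : Eqt (fun _ => True) π t) :
    Eqt (fun _ => True) π (nd d t) := fun σ _ i => by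
  simp only [nd, Units.val_mul, Units.coe_prod, Units.val_zpow_eq_zpow_val, map_mul, map_prod,
    map_zpow₀, ← h.eqt σ trivial, ← ht σ trivial]
  rw [← Equiv.prod_comp (π σ)]
  exact congrArg _ (Finset.prod_congr rfl fun x _ =>
    congrArg (fun n : ℤ => (t (π σ x) : K) ^ (-n)) (h.dg σ i x))

theorem eqt_of_fr (hD : SC D) (h : Opw T ε π d) {θ : K ≃ₐ[k] K} (hθ : ε θ = -1) {g : D.grp K}
    {t : Fin D.R.r → Kˣ} (hg : Fr T ε g t) : Eqt (fun _ => True) π t := fun σ _ i => by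
  have h1 : T.a (σ * θ) g = T.a σ g * T.a σ (hT D K t) := by
    rw [map_mul, MulAut.mul_apply, hg.2 θ hθ, map_mul]
  rcases Int.units_eq_one_or (ε σ) with e | e
  · rw [hg.2 _ (by simp [e, hθ]), hg.1 σ e, mul_right_inj] at h1
    simpa [e] using congrArg Units.val ((fix_hT hD h).1 h1.symm i)
  · rw [hg.1 _ (by simp [e, hθ]), hg.2 σ e, mul_assoc, left_eq_mul, mul_eq_one_iff_inv_eq,
      ← map_inv] at h1
    simpa [e] using congrArg Units.val ((fix_hT hD h).1 h1.symm i)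

theorem opw_cj (h : Opw T ε π d) {g : D.grp K} {t : Fin D.R.r → Kˣ} (hg : Fr T ε g t)
    (ht : Eqt (fun _ => True) π t) {T' : Tw k (D.grp K)} (e : Cj T g T') :
    Opw T' ε π (nd d t) := by
  have h1 : ∀ σ x, T'.a σ x = g⁻¹ * T.a σ g * T.a σ x * (g⁻¹ * T.a σ g)⁻¹ := fun σ x => by
    rw [e]
    simp [mul_assoc]
  refine ⟨h.near, h.dg, eqt_nd h ht, fun σ i u a => ?_, fun σ i u a => ?_⟩
  · simpa [h1, hg.1 σ a] using h.pos σ i u a
  · have m := (R_ok D).simple (π σ i)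
    rw [h1, h1, hg.2 σ a, inv_mul_cancel_left, (h.neg σ i u a).1, (h.neg σ i u a).2,
      GG_ok.hT_x _ ((R_ok D).neg_mem m), GG_ok.hT_x _ m, RG.chi0_apply, RG.chi0_apply]
    simp only [nd, RS.pr_neg, RS.pr_α]
    simp [mul_assoc, mul_comm, mul_left_comm]

/-- Transport. -/
def CJX2 : Prop := AllO fun k K _ _ _ D T ε π d => (∃ θ, ε θ = -1) → ∀ g t, Fr T ε g t →
  Eqt (fun _ => True) π t ∧ ∃ T' : Tw k (D.grp K), Cj T g T' ∧ Eqv T T' ∧ Opw T' ε π (nd d t)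

theorem cjx2 : CJX2 := fun k K _ _ _ _ _ D hD T ε π d h _ ⟨θ, hθ⟩ g t hg =>
  have : Algebra.IsAlgebraic k K := (IsSepClosure.separable (k := k) (K := K)).isAlgebraic
  ⟨eqt_of_fr hD h hθ hg, P011UC.cj T g, P011UC.cj_a T g, P011UC.eqv_cj T g,
    opw_cj h hg (eqt_of_fr hD h hθ hg) (P011UC.cj_a T g)⟩

end Vale.Agent.P011UGC5
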