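import Vale.Agent.P011UGC5.Act
import Vale.Agent.P011UGR1.Sub

/-!
The rational points of the Levi subgroups.
-/

set_option autoImplicit false
set_option linter.all false

namespace Vale.Agent.P011UGC5

open Matrix Vale.Agent.P011L Vale.Agent.P183CH Vale.Agent.P183CH.Chev Vale.Agent.P011U
  Vale.Agent.P011UGA Vale.Agent.P011UGR1 RG

open Classical in
/-- The part of `s` supported on `J`. -/
noncomputable def pj {ι K : Type} [Monoid K] (J : Set ι) (s : ι → K) : ι → K :=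
  fun a => if a ∈ J then s a else 1

theorem pj_mul {ι K : Type} [Monoid K] (J : Set ι) (s : ι → K) : pj J s * pj Jᶜ s = s :=
  funext fun a => by by_cases e : a ∈ J <;> simp [pj, e]

section

variable {R : RS} {K G : Type} [Field K] [Group G] {Γ : RG R K G} {J : Set (Fin R.r)}
  {j : Fin R.r} {t n u g : G}

theorem h_TJ (hj : j ∈ J) (a : Kˣ) : Γ.h j a ∈ TJ Γ J := Subgroup.subset_closure ⟨j, hj, a, rfl⟩

theorem TJ_le_T : TJ Γ J ≤ Γ.T := (Subgroup.closure_le _).2 (by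
  rintro _ ⟨j, -, a, rfl⟩
  exact h_mem j a)

theorem UJ_le_LJ : Γ.UJ J ≤ LJ Γ J := X_mono fun _ h _ => h.2.2

/-- Monomial elements of the derived group. -/
def Mo (Γ : RG R K G) (J : Set (Fin R.r)) (n : G) : Prop :=
  ∃ t ∈ TJ Γ J, ∃ l : List (Fin R.r), (∀ i ∈ l, i ∈ J) ∧ n = t * Γ.nd l

theorem Mo.rep (h : Mo Γ J n) : ∃ w ∈ R.WJ J, Γ.Rep n w :=
  let ⟨_, ht, l, hl, e⟩ := h
  ⟨_, RS.wd_mem hl, e ▸ (rep_nd l).T_mul (TJ_le_T ht)⟩

theorem Mo.mul_n (h : Mo Γ J n) (hj : j ∈ J) : Mo Γ J (n * Γ.n j) :=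
  let ⟨t, ht, l, hl, e⟩ := h
  ⟨t, ht, l ++ [j], by simpa [or_imp, forall_and] using ⟨hl, hj⟩, by
    rw [e, nd_append, nd_single, mul_assoc]⟩

variable (hΓ : Γ.Ok)
include hΓ

theorem mem_TJ : t ∈ TJ Γ J ↔ ∃ s, (∀ a ∉ J, s a = 1) ∧ hΓ.hT s = t := by
  refine ⟨fun h => ?_, ?_⟩
  · induction h using Subgroup.closure_induction with
    | mem x hx =>
      obtain ⟨a, ha, t, rfl⟩ := hx
      exact ⟨Pi.mulSingle a t, fun b hb => Pi.mulSingle_eq_of_ne (fun e => hb (by rwa [e])) _,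
        hΓ.hT_single _ _⟩
    | one => exact ⟨1, fun _ _ => rfl, map_one _⟩
    | mul x y _ _ hx hy =>
      obtain ⟨s, h1, rfl⟩ := hx
      obtain ⟨s', h1', rfl⟩ := hy
      exact ⟨s * s', fun a ha => by simp [h1 a ha, h1' a ha], map_mul _ _ _⟩
    | inv x _ hx =>
      obtain ⟨s, h1, rfl⟩ := hx
      exact ⟨s⁻¹, fun a ha => by simp [h1 a ha], map_inv _ _⟩
  · rintro ⟨s, hs, rfl⟩
    rw [show s = pj J s from funext fun a => by by_cases e : a ∈ J <;> simp [pj, e, hs]]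
    clear hs
    induction s using Pi.mulSingle_induction with
    | one =>
      rw [show pj J (1 : Fin R.r → Kˣ) = 1 from funext fun a => by simp [pj], map_one]
      exact one_mem _
    | mul s s' h h' =>
      rw [show pj J (s * s') = pj J s * pj J s' from funext fun a => by
        by_cases e : a ∈ J <;> simp [pj, e], map_mul]
      exact mul_mem h h'
    | mulSingle i b =>
      by_cases e : i ∈ J
      · rw [show pj J (Pi.mulSingle i b) = Pi.mulSingle i b from funext fun a => by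
          by_cases e' : a = i <;> simp [pj, e, e'], hΓ.hT_single]
        exact h_TJ e b
      · rw [show pj J (Pi.mulSingle i b) = 1 from funext fun a => by
          by_cases e' : a = i <;> simp [pj, e, e'], map_one]
        exact one_mem _

theorem pj_TJ (s : Fin R.r → Kˣ) : hΓ.hT (pj J s) ∈ TJ Γ J :=
  (mem_TJ hΓ).2 ⟨_, fun _ h => if_neg h, rfl⟩

theorem nd_TJ {l : List (Fin R.r)} (hl : ∀ i ∈ l, i ∈ J) (ht : t ∈ TJ Γ J) :
    Γ.nd l * t * (Γ.nd l)⁻¹ ∈ TJ Γ J := by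
  induction l with
  | nil => simpa [RG.nd] using ht
  | cons i l ih =>
    have := conj_le (g := Γ.n i) (L := TJ Γ J) rfl (by
      rintro _ ⟨j, hj, a, rfl⟩
      rw [hΓ.nh]
      exact mul_mem (h_TJ hj _) (h_TJ (hl i List.mem_cons_self) _))
      (ih fun j hj => hl j (List.mem_cons_of_mem _ hj))
    simpa [nd_cons, mul_assoc] using this

theorem Mo.mul_T (h : Mo Γ J n) (ht : t ∈ TJ Γ J) : Mo Γ J (n * t) :=
  let ⟨_, h1, l, hl, e⟩ := h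
  ⟨_, mul_mem h1 (nd_TJ hΓ hl ht), l, hl, by rw [e]; group⟩

variable (hR : R.Ok)
include hR

omit hΓ in
theorem n_LJ (hj : j ∈ J) : Γ.n j ∈ LJ Γ J :=
  have h := x_mem (Γ := Γ) (S := {γ | R.In J γ}) (hR.simple j) (RS.In_α hj)
  mul_mem (mul_mem (h _) (x_mem (hR.neg_mem (hR.simple j)) (RS.In_α hj).neg _)) (h _)

theorem TJ_le_LJ : TJ Γ J ≤ LJ Γ J := (Subgroup.closure_le _).2 (by
  rintro _ ⟨j, hj, a, rfl⟩
  have h := x_mem (Γ := Γ) (S := {γ | R.In J γ}) (hR.simple j) (RS.In_α hj)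
  rw [eq_mul_inv_of_mul_eq (hΓ.sl j a).symm]
  exact mul_mem (mul_mem (mul_mem (h _) (x_mem (hR.neg_mem (hR.simple j)) (RS.In_α hj).neg _))
    (h _)) (inv_mem (n_LJ hR hj)))

theorem nd_one {l : List (Fin R.r)} (hJ : ∀ i ∈ l, i ∈ J) (hl : 1 = R.wd l) :
    Γ.nd l ∈ TJ Γ J := by
  induction hn : l.length using Nat.strong_induction_on generalizing l with
  | _ m ih =>
  rcases List.eq_nil_or_concat' l with rfl | ⟨u, b, rfl⟩
  · exact one_mem _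
  rw [RS.wd_append, RS.wd_single] at hl
  have h1 : R.wd u (R.α b) ≤ 0 := by
    have := hR.mul_sE_α (R.wd u) b
    rw [← hl, RS.one_app] at this
    exact neg_nonneg.1 (this ▸ RS.α_nonneg b)
  obtain ⟨l₁, a, l₂, rfl, h2⟩ := hR.exchange h1
  rw [hR.wd_exchange h2] at hl
  have h3 := ih _ (by rw [← hn]; simp) (fun i hi => hJ i (by simp at hi ⊢; tauto)) hl rfl
  obtain ⟨c, hc⟩ := hΓ.rep_n_conj hR (rep_nd l₂) h2
  have ha : a ∈ J := hJ a (by simp)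
  have h4 := nd_TJ hΓ (l := l₁) (fun i hi => hJ i (by simp [hi]))
    (mul_mem (nd_TJ hΓ (l := [a]) (by simpa using ha) (h_TJ ha c)) (h_TJ ha (-1)))
  have h5 := mul_mem h4 h3
  rw [← hΓ.n_sq hR, nd_append, nd_single] at h5
  rw [nd_append, nd_append, nd_cons, nd_single, mul_assoc, mul_assoc,
    mul_inv_eq_iff_eq_mul.1 hc]
  simpa only [mul_assoc, inv_mul_cancel_left] using h5

theorem cell (hn : Mo Γ J n) (hj : j ∈ J) (hu : u ∈ Γ.UJ J) :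
    ∃ a ∈ Γ.UJ J, ∃ b ∈ Γ.UJ J, ∃ m, Mo Γ J m ∧ n * u * Γ.n j = a * m * b := by
  obtain ⟨w, hw, h⟩ := hn.rep
  have h0 : R.α j ∈ R.PJ J := ⟨hR.simple j, RS.α_nonneg j, RS.In_α hj⟩
  rcases hR.sign' h.mem_W (hR.simple j) with e | e
  · obtain ⟨a, ha, b, hb, h1⟩ := hΓ.cell_mul hR h (rep_n j) (by
      rw [hR.sE_inv, hR.Inv_sE, Set.disjoint_singleton_right]
      exact fun c => hR.not_both (hR.map_mem h.mem_W (hR.simple j)) e c.2.2) hw (RS.sE_mem hj) hu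
    exact ⟨a, ha, b, hb, _, hn.mul_n hj, h1⟩
  obtain ⟨x, hx, b, hb, rfl⟩ := hΓ.split_UJ' hR (inv_mem (RS.sE_mem_W j)) hu
  have h1 := hΓ.conj_UJ hR (rep_n j).inv (inv_mem (RS.sE_mem hj)) hb
  obtain ⟨a, rfl⟩ := hΓ.mem_X_single (hR.simple j) (fun γ e => by
    rw [← hR.Inv_sE, ← hR.sE_inv]; exact e.2) hx
  by_cases ha : a = 0
  · exact ⟨1, one_mem _, _, h1, _, hn.mul_n hj, by rw [ha, hΓ.x_zero (hR.simple j)]; group⟩
  obtain ⟨c, hc⟩ := hΓ.rep_conj hR (rep_n j).inv (hR.simple j)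
  have h2 := (hc a).1
  have h3 := hΓ.sl j (-(c * Units.mk0 a ha)⁻¹)
  rw [hR.sE_inv, hR.sE_α] at h2
  rw [show -(((-(c * Units.mk0 a ha)⁻¹)⁻¹ : Kˣ) : K) = c * a by simp, ← h2] at h3
  generalize (-(c * Units.mk0 a ha)⁻¹ : Kˣ) = s at h3
  have h4 := inv_mem (x_mem (Γ := Γ) (hR.simple j) h0 s)
  have h6 : R.α j ∈ R.PJ J ∩ {γ | γ ∈ R.Φ ∧ 0 ≤ γ ∧ 0 ≤ (w * R.sE j) γ} :=
    ⟨h0, hR.simple j, RS.α_nonneg j, by rw [hR.mul_sE_α]; exact neg_nonneg.2 e⟩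
  refine ⟨_, hΓ.conj_UJ hR (h.mul (rep_n j)) (mul_mem hw (RS.sE_mem hj))
    (inv_mem (x_mem (hR.simple j) h6 (s : K))), _, mul_mem h4 h1, _,
    ((hn.mul_n hj).mul_T hΓ (h_TJ hj s)).mul_n hj, ?_⟩
  have h5 : Γ.h j s = Γ.x (R.α j) s * ((Γ.n j)⁻¹ * Γ.x (R.α j) a * (Γ.n j)⁻¹⁻¹) * Γ.x (R.α j) s *
      (Γ.n j)⁻¹ := by rw [h3, mul_inv_cancel_right]
  rw [h5]
  group

theorem bruhat_LJ (hg : g ∈ LJ Γ J) :
    ∃ u ∈ Γ.UJ J, ∃ n, Mo Γ J n ∧ ∃ u' ∈ Γ.UJ J, g = u * n * u' := by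
  let C : G → Prop := fun g => ∃ u ∈ Γ.UJ J, ∃ n, Mo Γ J n ∧ ∃ u' ∈ Γ.UJ J, g = u * n * u'
  have c1 : ∀ j ∈ J, ∀ a c, C c → C (c * Γ.x (R.α j) a) := by
    rintro j hj a _ ⟨u, hu, n, hn, u', hu', rfl⟩
    exact ⟨u, hu, n, hn, _, mul_mem hu' (x_mem (S := R.PJ J) (hR.simple j)
      ⟨hR.simple j, RS.α_nonneg j, RS.In_α hj⟩ a), mul_assoc _ _ _⟩
  have c3 : ∀ j ∈ J, ∀ c, C c → C (c * Γ.n j) := by
    rintro j hj _ ⟨u, hu, n, hn, u', hu', rfl⟩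
    obtain ⟨a, ha, b, hb, m, hm, e⟩ := cell hΓ hR hn hj hu'
    exact ⟨_, mul_mem hu ha, m, hm, b, hb, by rw [mul_assoc u, mul_assoc u, e]; group⟩
  have c4 : ∀ j ∈ J, ∀ a c, C c → C (c * Γ.x (-R.α j) a) := fun j hj a c hc => by
    obtain ⟨b, hb⟩ := hΓ.rep_conj hR (rep_n j) (hR.simple j)
    have h1 : (Γ.n j)⁻¹ = Γ.n j * Γ.n j * Γ.n j := by
      rw [hΓ.n_inv hR, hΓ.n_sq hR]
    have := c3 j hj _ (c3 j hj _ (c3 j hj _ (c1 j hj ((b⁻¹ : Kˣ) * a) _ (c3 j hj _ hc))))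
    rw [← Units.mul_inv_cancel_left b a, ← hR.sE_α, ← (hb _).1, h1]
    simpa only [mul_assoc] using this
  rw [LJ_eq hR hΓ] at hg
  induction hg using Subgroup.closure_induction_right with
  | one =>
    exact ⟨1, one_mem _, 1, ⟨1, one_mem _, [], by simp, by simp [RG.nd]⟩, 1, one_mem _, by simp⟩
  | mul_right x _ y hy h =>
    obtain ⟨j, hj, a, rfl | rfl⟩ := hy
    exacts [c1 j hj a x h, c4 j hj a x h]
  | mul_inv_cancel x _ y hy h =>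
    obtain ⟨j, hj, a, rfl | rfl⟩ := hy
    · exact hΓ.x_neg (hR.simple j) a ▸ c1 j hj _ x h
    · exact hΓ.x_neg (hR.neg_mem (hR.simple j)) a ▸ c4 j hj _ x h

/-- The torus of the derived group. -/
theorem TJ_of (hg : g ∈ LJ Γ J) (ht : g ∈ Γ.T) : g ∈ TJ Γ J := by
  obtain ⟨u, hu, _, ⟨t, h1, l, hl, rfl⟩, u', hu', e⟩ := bruhat_LJ hΓ hR hg
  have h2 := (rep_nd l).T_mul (TJ_le_T h1)
  obtain rfl := hΓ.cell_eq hR h2.mem_N (T_le_N ht) (UJ_le J hu) (UJ_le J hu') e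
  exact mul_mem h1 (nd_one hΓ hR hl (hΓ.rep_unique hR (rep_T ht) h2))

/-- The centraliser of the derived group in the Levi subgroup lies in the torus. -/
theorem cen (hg : g ∈ Γ.GJ J) (h : ∀ x ∈ LJ Γ J, Commute g x) : g ∈ Γ.T := by
  obtain ⟨u, hu, n, hn, u', hu', rfl⟩ := hΓ.bruhat0 hR hg
  obtain ⟨w, hw, hn⟩ := exists_rep hn
  obtain rfl : w = 1 := hR.eq_one hw fun j hj => by
    have h2 := x_mem (Γ := Γ) (S := R.PJ J) (hR.simple j)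
      ⟨hR.simple j, RS.α_nonneg j, RS.In_α hj⟩ 1
    have h3 := mul_mem (mul_mem (inv_mem hu') h2) hu'
    have h4 := mul_mem (mul_mem (inv_mem hu) h3) hu
    rw [← (h _ (UJ_le_LJ h3)).mul_inv_cancel] at h4
    exact ((hΓ.x_mem_iff hR (RS.cl_pos w) (hR.α_pos j) one_ne_zero).1 ((hΓ.conj_mem_U hR hn
      (UJ_le J h2)).1 (UJ_le J ((congrArg (· ∈ Γ.UJ J) (by group)).mp h4)))).2.2
  have h1 := hΓ.rep_one hR hn
  have h2 := mul_mem hu (hΓ.nm_T_X _ _ h1 _ hu')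
  obtain ⟨w, hw⟩ := hR.exists_Lg J
  obtain ⟨l, hl, rfl⟩ := hR.exists_wd hw.1
  have h3 := (h (Γ.nd l) (list_prod_mem fun x hx => by
    obtain ⟨i, hi, rfl⟩ := List.mem_map.1 hx
    exact n_LJ hR (hl i hi))).symm.mul_inv_cancel
  rw [show u * n * u' = u * (n * u' * n⁻¹) * n by group] at h3 ⊢
  rw [(hΓ.tri _ (UJ_le J h2) _ (mul_mem h1 (inv_mem (hΓ.nm_N_T hR _ (rep_nd l).mem_N _ h1))) (by
    rw [← mul_assoc, ← h3]
    exact (congrArg (· ∈ Γ.V) (by group)).mp (VJ_le J (hΓ.Lg_U hR (rep_nd l) hw h2)))).1, one_mul]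
  exact h1

end

variable {k K : Type} [Field k] [Field K] [Algebra k K] {D : Chev} {T : Tw k (D.grp K)}
  {ε : (K ≃ₐ[k] K) →* ℤˣ} {π : (K ≃ₐ[k] K) →* Equiv.Perm (Fin D.R.r)} {d : Fin D.R.r → Kˣ}
  {J J' : Set (Fin D.R.r)} {g : D.grp K}

theorem TJ_disj (hD : SC D) (h : Disjoint J J') (h1 : g ∈ TJ (GG D K) J)
    (h2 : g ∈ TJ (GG D K) J') : g = 1 := by
  obtain ⟨s, hs, rfl⟩ := (mem_TJ GG_ok).1 h1
  obtain ⟨s', hs', e⟩ := (mem_TJ GG_ok).1 h2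
  obtain rfl := hD.hT_inj e
  rw [show s' = 1 from funext fun a => (em (a ∈ J)).elim
    (fun c => hs' a (Set.disjoint_left.1 h c)) (hs a), map_one]

theorem a_TJ (o : Opw T ε π d) (σ : K ≃ₐ[k] K) (hJ : ∀ a ∈ J, π σ a ∈ J')
    (hg : g ∈ TJ (GG D K) J) : T.a σ g ∈ TJ (GG D K) J' :=
  Subgroup.mem_comap.1 ((Subgroup.closure_le (Subgroup.comap (T.a σ).toMonoidHom _)).2 (by
    rintro _ ⟨j, hj, t, rfl⟩
    exact Subgroup.subset_closure ⟨_, hJ j hj, _, a_h o σ j t⟩) hg)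

theorem orb_iff (σ : K ≃ₐ[k] K) (i a : Fin D.R.r) : π σ a ∈ orb π i ↔ a ∈ orb π i :=
  ⟨fun ⟨τ, e⟩ => ⟨σ⁻¹ * τ, by simp [e]⟩, fun ⟨τ, e⟩ => ⟨σ * τ, by simp [e]⟩⟩

theorem fix_mul {A B : Subgroup (D.grp K)} (h : ∀ z ∈ A, z ∈ B → z = 1)
    (hA : ∀ σ, ∀ a ∈ A, T.a σ a ∈ A) (hB : ∀ σ, ∀ b ∈ B, T.a σ b ∈ B) {a b : D.grp K} (ha : a ∈ A)
    (hb : b ∈ B) (e : a * b ∈ T.fix) : a ∈ T.fix ∧ b ∈ T.fix := by
  have h1 : ∀ σ, T.a σ a = a := fun σ => (inv_mul_eq_one.1 (h _ (mul_mem (inv_mem ha) (hA σ a ha))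
    (by
      rw [show a⁻¹ * T.a σ a = a⁻¹ * T.a σ (a * b) * (T.a σ b)⁻¹ by rw [map_mul]; group, e σ,
        inv_mul_cancel_left]
      exact mul_mem hb (inv_mem (hB σ b hb))))).symm
  exact ⟨h1, (mul_mem_cancel_left (show a ∈ T.fix from h1)).1 e⟩

theorem tor_le (hD : SC D) (o : Opw T ε π d) {N : Subgroup (D.grp K)}
    (h : ∀ i, FJ T (orb π i) ≤ N) {s : Fin D.R.r → Kˣ} (hs : hT D K s ∈ T.fix) : hT D K s ∈ N := by
  have key : ∀ (S : Finset (Fin D.R.r)) s, hT D K s ∈ T.fix → (∀ a ∉ S, s a = 1) →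
      hT D K s ∈ N := fun S => by
    induction S using Finset.induction_on with
    | empty =>
      intro s _ e
      rw [show s = 1 from funext fun a => e a (by simp), map_one]
      exact one_mem _
    | insert i S _ ih =>
      intro s hs e
      rw [← pj_mul (orb π i) s, map_mul] at hs ⊢
      have := fix_mul (fun _ => TJ_disj hD disjoint_compl_right)
        (fun σ _ => a_TJ o σ fun a => (orb_iff σ i a).2)
        (fun σ _ => a_TJ o σ fun a c c' => c ((orb_iff σ i a).1 c')) (pj_TJ GG_ok s)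
        (pj_TJ GG_ok s) hs
      refine mul_mem (h i ⟨this.1, TJ_le_LJ GG_ok (R_ok D) (pj_TJ GG_ok s)⟩)
        (ih _ this.2 fun a c => ?_)
      by_cases c' : a = i
      · exact if_neg fun c => c ⟨1, by simp [c']⟩
      · simp [pj, e a (by simp [c, c'])]
  exact key Finset.univ s hs (by simp)

theorem LJ_disj (hD : SC D) (h : ∀ a ∈ J, ∀ b ∈ J', D.R.A a b = 0) (h1 : g ∈ LJ (GG D K) J)
    (h2 : g ∈ LJ (GG D K) J') : g = 1 :=
  have h3 := cen GG_ok (R_ok D) (Subgroup.mem_sup_left h1) fun _ hx =>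
    (comm_LJ GG_ok (R_ok D) h hx h2).symm
  TJ_disj hD (Set.disjoint_left.2 fun a c c' => by
    have := h a c a c'
    rw [(R_ok D).diag] at this
    omega) (TJ_of GG_ok (R_ok D) h1 h3) (TJ_of GG_ok (R_ok D) h2 h3)

theorem lv2 : LV2 := fun k K _ _ _ _ _ D hD T ε π d o _ N h i j h' g ⟨h1, h2⟩ => by
  have hR := R_ok D
  rw [SetLike.mem_coe, GJ, sup_comm] at h2
  obtain ⟨y, hy, t, ht, rfl⟩ := (GG_ok.nm_T_X _).mem_sup'.1 h2
  obtain ⟨s, rfl⟩ := GG_ok.exists_hT ht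
  have st : ∀ σ a, π σ a ∈ orb π i ∪ orb π j ↔ a ∈ orb π i ∪ orb π j := fun σ a =>
    or_congr (orb_iff σ i a) (orb_iff σ j a)
  rw [← pj_mul (orb π i ∪ orb π j) s, map_mul, ← mul_assoc] at h1 ⊢
  have h3 := mul_mem hy (TJ_le_LJ GG_ok hR (pj_TJ GG_ok s))
  have h4 := fix_mul (fun z c c' => TJ_disj hD disjoint_compl_right
    (TJ_of GG_ok hR c (TJ_le_T c')) c') (fun σ _ => a_LJ o σ fun a => (st σ a).2)
    (fun σ _ => a_TJ o σ fun a c c' => c ((st σ a).1 c')) h3 (pj_TJ GG_ok s) h1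
  refine mul_mem ?_ (tor_le hD o h h4.2)
  by_cases c : ∃ i' ∈ orb π i, ∃ j' ∈ orb π j, D.R.A i' j' ≠ 0
  · exact h' c ⟨h4.1, h3⟩
  have c' : ∀ a ∈ orb π i, ∀ b ∈ orb π j, D.R.A a b = 0 := by simpa using c
  obtain ⟨a, ha, b, hb, e⟩ := LJ_split GG_ok hR c' h3
  have h5 := fix_mul (fun _ => LJ_disj hD c') (fun σ _ => a_LJ o σ fun a => (orb_iff σ i a).2)
    (fun σ _ => a_LJ o σ fun a => (orb_iff σ j a).2) ha hb (e ▸ h4.1)
  exact e ▸ mul_mem (h i ⟨h5.1, ha⟩) (h j ⟨h5.2, hb⟩)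

end Vale.Agent.P011UGC5
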