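import Vale.Agent.P011UHB.E6
import Vale.Agent.P011UQ.Asm
import Vale.Agent.P011UIV.Main
import Vale.Agent.P011UP.Lev
import Vale.Agent.P011UGC5.Lv

/-!
The Tits cocycle of the inner forms of type `E₆`.
-/

set_option autoImplicit false
set_option linter.all false

namespace Vale.Agent.P011UGC5

open Matrix Vale.Agent.P011L Vale.Agent.P011LD Vale.Agent.P011LQ Vale.Agent.P183CH
  Vale.Agent.P183CH.RG Vale.Agent.P011U Vale.Agent.P011UQ Vale.Agent.P011UHB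

/-- Three times the inverse of the Cartan matrix. -/
def V6 : Matrix (Fin 6) (Fin 6) ℤ := !![4, 3, 5, 6, 4, 2; 3, 6, 6, 9, 6, 3; 5, 6, 10, 12, 8, 4;
  6, 9, 12, 18, 12, 6; 4, 6, 8, 12, 10, 5; 2, 3, 4, 6, 5, 4]

theorem pr6 {R : RS} {e : Fin R.r ≃ Fin 6} (t : Ty R CartanMatrix.E₆ e) (v : Fin 6 → ℤ)
    (j : Fin R.r) : R.pr (fun a => v (e a)) j = ∑ a, v a * CartanMatrix.E₆ a (e j) := by
  simp only [RS.pr_eq, t _ _, ← e.sum_comp]

theorem gen6 {R : RS} {e : Fin R.r ≃ Fin 6} (t : Ty R CartanMatrix.E₆ e) {i : Fin R.r}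
    (hi : i ∈ J0 e) (j : Fin R.r) : ∃ (γ : R.Q) (m : ℤ), ∀ a,
      R.pr γ a = (if a = j then 1 else 0) - if a = i then m else 0 := by
  obtain ⟨m, hm⟩ := (by decide : ∀ i j : Fin 6, i ≠ 1 ∧ i ≠ 3 → ∃ m : Fin 3, ∀ b,
    ∑ a, (V6 j a - m.1 * V6 i a) / 3 * CartanMatrix.E₆ a b =
      (if b = j then 1 else 0) - if b = i then (m.1 : ℤ) else 0) (e i) (e j) hi
  exact ⟨_, m, fun a => (pr6 t _ a).trans (by simpa using hm (e a))⟩

theorem prod_ite {r : ℕ} {A : Type} [CommGroup A] (s : Fin r → A) (i : Fin r) (m : ℤ) :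
    ∏ j, s j ^ (if j = i then m else 0) = s i ^ m := by
  rw [Finset.prod_eq_single i (fun j _ a => by simp [a]) (by simp), if_pos rfl]

variable {k K : Type} [Field k] [Field K] [Algebra k K] {D : Chev} {T : Tw k (D.grp K)}
  {g : (K ≃ₐ[k] K) → D.grp K} {c : (K ≃ₐ[k] K) → Fin D.R.r → Kˣ}
  {z : (K ≃ₐ[k] K) → (K ≃ₐ[k] K) → Fin D.R.r → Kˣ}

/-- The data of the Tits cocycle of an inner form. -/
structure Tc (T : Tw k (D.grp K)) (g : (K ≃ₐ[k] K) → D.grp K)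
    (c : (K ≃ₐ[k] K) → Fin D.R.r → Kˣ)
    (z : (K ≃ₐ[k] K) → (K ≃ₐ[k] K) → Fin D.R.r → Kˣ) : Prop where
  std : ∀ σ, Std (GG D K) (T.a σ) σ (g σ) (c σ) 1
  op : Op ⊤ fun τ => g τ = 1 ∧ c τ = 1
  tz : ∀ σ τ, tz T g σ τ = GG_ok.hT (z σ τ)
  co : ∀ σ τ i, c (σ * τ) i = chi0 D.R K (D.R.α i) (z σ τ) * (c σ i * um σ (c τ i))

theorem tc_of [Normal k K] (hD : SC D) {π : _} (h : NF T g c π) (h1 : In1 T ∅) :
    ∃ z, Tc T g c z ∧ Co 1 z := by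
  obtain ⟨p, z, b1, b2, b3, b4, b5⟩ := nf_co hD h
  obtain rfl : π = fun _ => 1 := funext fun σ => by
    obtain ⟨g', c', h'⟩ := h1 σ nofun
    exact (std_uniq GG_ok (Chev.R_ok D) h' (h.1 σ) (map_one σ)).1
  obtain rfl : p = 1 := MonoidHom.ext b1
  exact ⟨z, ⟨h.1, (P011UIV.nf_one h).and b5, b3, b4⟩, b2⟩

theorem Tc.chi (h : Tc T g c z) (γ : D.R.Q) (σ τ : K ≃ₐ[k] K) : ∏ j, c (σ * τ) j ^ γ j =
    chi0 D.R K γ (z σ τ) * um σ (∏ j, c τ j ^ γ j) * ∏ j, c σ j ^ γ j := by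
  rw [← chi0_prod]
  simp only [h.co, mul_zpow, Finset.prod_mul_distrib, map_prod, map_zpow, mul_assoc, mul_comm]

theorem Tc.lift [Normal k K] (h : Tc T g c z) {e : Fin D.R.r ≃ Fin 6}
    (t : Ty D.R CartanMatrix.E₆ e) {i : Fin D.R.r} (hi : i ∈ J0 e) {μ : (K ≃ₐ[k] K) → Kˣ}
    (h1 : ∀ σ τ, z σ τ i * um σ (μ τ) * μ σ = μ (σ * τ)) (h2 : Op ⊤ fun σ => μ σ = 1) :
    Lift T := by
  choose γ m hγ using gen6 t hi
  let s : (K ≃ₐ[k] K) → Fin D.R.r → Kˣ := fun σ j => (∏ a, c σ a ^ γ j a) * μ σ ^ m j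
  refine lift_of (fun σ => std_mul GG_ok (Chev.R_ok D) (h.std σ) (s σ)) (fun σ τ => ?_)
    ((h.op.and h2).imp fun σ _ a => by simp [a.1.1, s, a.1.2, a.2, ← Pi.one_def])
  have e2 := std_hT GG_ok (ψ := (T.a σ).toMonoidHom) (σ := (σ : K →+* K)) (h.std σ) (s τ)
  have e3 : z σ τ * (fun j => um σ (s τ j)) * s σ = s (σ * τ) := funext fun j => by
    simp only [s, h.chi, ← h1]
    rw [chi0_apply]
    simp only [hγ, _root_.zpow_sub, Finset.prod_mul_distrib, Finset.prod_inv_distrib, prod_ite,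
      Pi.mul_apply, map_mul, map_zpow, mul_zpow, zpow_one]
    apply Additive.ofMul.injective
    simp only [ofMul_mul, ofMul_inv]
    abel
  have e4 := congrArg GG_ok.hT e3
  rw [map_mul, map_mul, ← h.tz] at e4
  show (g (σ * τ) * GG_ok.hT (s (σ * τ)))⁻¹ * (T.a σ).toMonoidHom (g _ * _) * _ = 1
  rw [map_mul, e2, ← e4, P011U.tz]
  exact (by intros; group : ∀ a b c d e : D.grp K, (a * (a⁻¹ * b * c * d * e))⁻¹ *
    (b * (c * d * c⁻¹)) * (c * e) = 1) _ _ _ _ _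

theorem Tc.res (h : Tc T g c z) {L : IntermediateField k K} {T' : Tw L (D.grp K)}
    (e : Res T L T') : Tc T' (fun σ => g (σ.restrictScalars k)) (fun σ => c (σ.restrictScalars k))
      fun σ τ => z (σ.restrictScalars k) (τ.restrictScalars k) :=
  ⟨fun σ => by rw [e]; exact h.std _,
    h.op.elim fun S a => ⟨S, fun σ _ => a (σ.restrictScalars k) trivial⟩,
    fun σ τ => by rw [P011U.tz, e]; exact h.tz (σ.restrictScalars k) (τ.restrictScalars k),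
    fun σ τ => h.co (σ.restrictScalars k) (τ.restrictScalars k)⟩

theorem lf3 (bq : BQ3) : LF3 := fun k K _ _ _ _ D hk hD T hn e t h1 => by
  have := glob_inf hk
  have : IsGalois k K := IsSepClosure.isGalois
  obtain ⟨F, _, _, _, _⟩ := hk.resolve_left hn
  have := P011.H271.GFF.mk' F k
  obtain ⟨g, c, π, h⟩ := P011UC.nfx P011UB.aut k K D hD T
  obtain ⟨z, h2, h3⟩ := tc_of hD h h1
  obtain ⟨n, _, _, _, A, d1, d2⟩ := pa_of h3
  have a : ∀ s : Fin D.R.r → Kˣ, chi0 D.R K (fun a => V6 0 (e a)) s = s (e.symm 0) ^ 3 := fun s => by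
    rw [chi0_apply]
    simp only [pr6 t, (by decide : ∀ b, ∑ a, V6 0 a * CartanMatrix.E₆ a b =
      if b = 0 then 3 else 0), e.apply_eq_iff_eq_symm_apply, prod_ite, zpow_ofNat]
  obtain ⟨L, l1, l2, l3⟩ := bq k K n (A (e.symm 0)) (fun σ => ((∏ j, c σ j ^ V6 0 (e j))⁻¹ : Kˣ))
    ⟨fun σ _ => Units.ne_zero _, fun σ _ τ _ => ⟨_, d1 _ σ rfl τ rfl, by
      rw [h2.chi, a]
      simp [mul_comm, mul_left_comm (_ ^ 3 : K)]⟩, (h2.op.and d2).imp fun σ _ a => ⟨1, by simpa using a.2 _, by simp [a.1.2]⟩⟩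
  obtain ⟨μ, m1, S, m2⟩ := bd_of (Δ := L.fixingSubgroup) (fun σ _ τ _ => d1 _ σ rfl τ rfl)
    (d2.imp fun _ _ x => x _) (l3.mono fun σ => (L.mem_fixingSubgroup_iff σ).1)
  have f : ∀ σ : K ≃ₐ[L] K, σ.restrictScalars k ∈ L.fixingSubgroup := fun σ =>
    (L.mem_fixingSubgroup_iff _).2 fun x hx => σ.commutes ⟨x, hx⟩
  exact ⟨L, l1, l2, fun T' r => (h2.res r).lift t (i := e.symm 0) (by simp [J0])
    (fun σ τ => m1 _ (f σ) _ (f τ)) ⟨S, fun σ _ a => m2 _ trivial a (f σ)⟩⟩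

theorem tj0 : TJ0 := fun k K _ _ _ _ _ D hD T e t h1 J hJ => by
  have := Infinite.of_injective _ (algebraMap k K).injective
  have : IsGalois k K := IsSepClosure.isGalois
  obtain ⟨T', e1, g, c, π, h, h2⟩ := P011UP.lev (P011UC.nfx P011UB.aut) k K D hD T J hJ
  obtain ⟨z, h3, -⟩ := tc_of hD h ((((P011UIV.inv k K D hD T).1 T' e1).2.2 ∅).2.1 h1)
  refine or_iff_not_imp_right.2 fun a => P011UIV.eqv_lift hD (P011UC.eqv_symm e1) ?_
  obtain ⟨i, hi, hi'⟩ := Set.not_subset.1 a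
  refine h3.lift t hi (μ := 1) (fun σ τ => ?_) ⟨∅, fun _ _ _ => rfl⟩
  have b := mul_mem (mul_mem (inv_mem (h2 (σ * τ)).1) (h2 σ).1) (P011UP.std_X GG_ok
    (ψ := (T'.a σ).toMonoidHom) (σ := (σ : K →+* K)) (h3.std σ) (Chev.R_ok D)
    (S' := {γ | D.R.In J γ}) (fun γ e _ => e) (h2 τ).1)
  rw [show ∀ a b c : D.grp K, a * b * (b⁻¹ * c * b) = a * c * b by intros; group] at b
  simpa using of_TJ hD (TJ_of GG_ok (Chev.R_ok D) (h3.tz σ τ ▸ b) (GG_ok.hT_mem _)) hi'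

end Vale.Agent.P011UGC5
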